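import Vale.Agent.P322.Main

namespace Vale.Agent.Results.P322.A_full

theorem result (n : ℕ) (_hn : 1 ≤ n) (f : (Fin n → ℤˣ) → ℤˣ) (ε : ℝ) (h0 : 0 ≤ ε) (h1 : ε ≤ 1 / 2) :
    Vale.Agent.P322.mutualInfo (Vale.Agent.P322.joint n ε f) ≤ 1 - Vale.Agent.P322.h2 ε :=
  Vale.Agent.P322.ck_main n f ε h0 h1

end Vale.Agent.Results.P322.A_full
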